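import Vale.Agent.P066.Small.Cones

/-! Elementary positivity for natural unit interval graphs without four pairwise adjacent vertices. -/

open Finset Polynomial
open scoped Classical

noncomputable section

namespace Vale.Agent.P066.Small

variable {n N : ℕ}

/-- The contribution of one colouring. -/
def wt (h : Fin n → ℕ) (f : Fin n → Fin N) : MvPolynomial (Fin N) ℤ[X] :=
  MvPolynomial.C (∏ i, ∏ j, qpair h f i j) * ∏ i, xx N (f i)

lemma chromQ_sum (h : Fin n → ℕ) : chromQ n h N = ∑ f, wt h f := by
  rw [chromQ, sum_filter]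
  refine sum_congr rfl fun f _ => ?_
  rw [wt, prod_qpair]
  split_ifs <;> simp [xx]

lemma wt_snoc (h : Fin (n + 1) → ℕ) (g : Fin n → Fin N) (b : Fin N) :
    wt h (Fin.snoc g b) = wt (fun i => h i.castSucc) g * xx N b *
      ∏ i : Fin n, if n < h i.castSucc then cw (Q N) (g i) b else 1 := by
  set f : Fin (n + 1) → Fin N := Fin.snoc g b with hf
  have hl : ∀ j, qpair h f (Fin.last n) j = 1 := fun j =>
    if_neg fun e => absurd e.1 (Fin.le_last j).not_gt
  have hc : ∀ i j : Fin n, qpair h f i.castSucc j.castSucc =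
      qpair (fun i => h i.castSucc) g i j := by
    intro i j
    simp [qpair, Edge, hf]
    congr
  have he : ∀ i : Fin n, MvPolynomial.C (qpair h f i.castSucc (Fin.last n)) =
      if n < h i.castSucc then cw (Q N) (g i) b else 1 := by
    intro i
    simp only [qpair, Edge, hf, Fin.castSucc_lt_last, true_and, Fin.val_last, Fin.snoc_castSucc,
      Fin.snoc_last, cw, Q]
    split_ifs <;> simp
  simp only [wt, Fin.prod_univ_castSucc (n := n), hl, hc, prod_const_one, mul_one, prod_mul_distrib,
    map_mul, map_prod, he]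
  simp only [hf, Fin.snoc_castSucc, Fin.snoc_last]
  ring

lemma sum_snoc {M : Type*} [AddCommMonoid M] (F : (Fin (n + 1) → Fin N) → M) :
    ∑ f, F f = ∑ b, ∑ g : Fin n → Fin N, F (Fin.snoc g b) := by
  rw [← Equiv.sum_comp (Fin.snocEquiv fun _ : Fin (n + 1) => Fin N) F, Fintype.sum_prod_type]
  rfl

/-- Colourings with the last colour fixed. -/
def V1 (h : Fin (n + 1) → ℕ) (N : ℕ) (b : Fin N) : MvPolynomial (Fin N) ℤ[X] :=
  ∑ g : Fin n → Fin N, wt h (Fin.snoc g b)

/-- Colourings with the last two colours fixed. -/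
def V2 (h : Fin (n + 1 + 1) → ℕ) (N : ℕ) (a b : Fin N) : MvPolynomial (Fin N) ℤ[X] :=
  ∑ g : Fin n → Fin N, wt h (Fin.snoc (Fin.snoc g a) b)

lemma V1_eq_sum_V2 (h : Fin (n + 1 + 1) → ℕ) (b : Fin N) : V1 h N b = ∑ a, V2 h N a b :=
  sum_snoc _

lemma chromQ_eq_sum_V1 (h : Fin (n + 1) → ℕ) : chromQ (n + 1) h N = ∑ b, V1 h N b := by
  rw [chromQ_sum]; exact sum_snoc _

theorem main : ∀ n (h : Fin (n + 1) → ℕ), Monotone h → (∀ i, h i ≤ (i : ℕ) + 3) →
    C1 (n + 1) (V1 h) ∧ ∀ m (e : n = m + 1),
      m + 1 < h ⟨m, by omega⟩ → C2 (m + 2) (V2 (n := m) (fun i => h (Fin.cast (by omega) i))) := by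
  intro n
  induction n with
  | zero =>
    intro h _ _
    refine ⟨?_, fun m e => absurd e (by omega)⟩
    refine (C1.gen (n := 0 + 1) 0 EPositive.one' rfl).congr fun N b => ?_
    rw [V1, univ_unique, sum_singleton, wt_snoc]
    simp [wt, E1, p1_zero]
  | succ m ih =>
    intro h hmono h3
    set h' : Fin (m + 1) → ℕ := fun i => h i.castSucc with hh'
    have hm' : Monotone h' := fun i j hij => hmono hij
    obtain ⟨ih1, ih2⟩ := ih h' hm' (fun i => h3 i.castSucc)
    by_cases hE : m + 1 < h ⟨m, by omega⟩
    · have hC : C2 (m + 1 + 1) (V2 h) := by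
        by_cases hT : ∃ k, m = k + 1 ∧ ∃ hk : k < m + 1 + 1, k + 2 < h ⟨k, hk⟩
        · obtain ⟨k, rfl, hk, hkE⟩ := hT
          have hold := ih2 k rfl (by exact lt_trans (by omega : k + 1 < k + 2) hkE)
          refine (C2.step hold).congr fun N b c => ?_
          rw [V2, sum_snoc]
          refine sum_congr rfl fun a _ => ?_
          rw [V2, sum_mul, sum_mul, sum_mul]
          refine sum_congr rfl fun g _ => ?_
          rw [wt_snoc, Fin.prod_univ_castSucc, Fin.prod_univ_castSucc]
          have h0 : ∀ i : Fin k, ¬ k + 1 + 1 < h i.castSucc.castSucc.castSucc := fun i => by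
            have := h3 i.castSucc.castSucc.castSucc
            simp only [Fin.val_castSucc] at this
            have := i.isLt
            omega
          have e1 : k + 1 + 1 < h (Fin.last k).castSucc.castSucc := hkE
          have e2 : k + 1 + 1 < h (Fin.last (k + 1)).castSucc := hE
          simp only [if_neg (h0 _), prod_const_one, one_mul, if_pos e1, if_pos e2,
            Fin.snoc_castSucc, Fin.snoc_last]
          show _ = wt h' _ * _ * _ * _
          ring
        · refine (C1.dplus ih1).congr fun N a b => ?_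
          rw [V2, V1, sum_mul, sum_mul]
          refine sum_congr rfl fun g _ => ?_
          rw [wt_snoc, Fin.prod_univ_castSucc]
          have h0 : ∀ i : Fin m, ¬ m + 1 < h i.castSucc.castSucc := fun i hi => by
            have := h3 i.castSucc.castSucc
            simp only [Fin.val_castSucc] at this
            exact hT ⟨i, by omega, by omega, by
              have : (i.castSucc.castSucc : Fin (m + 1 + 1)) = ⟨i, by omega⟩ := rfl
              rw [this] at hi
              omega⟩
          have e2 : m + 1 < h (Fin.last m).castSucc := hE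
          simp only [if_neg (h0 _), prod_const_one, one_mul, if_pos e2, Fin.snoc_last]
          ring
      refine ⟨(C2.sumOld hC).congr fun N b => V1_eq_sum_V2 h b, fun m' e _ => ?_⟩
      obtain rfl : m = m' := by omega
      exact hC
    · refine ⟨?_, fun m' e he => absurd ?_ hE⟩
      · have hP : EPositive (m + 1) (fun N => chromQ (m + 1) h' N) :=
          (C1.epositive ih1).congr fun N => chromQ_eq_sum_V1 h'
        refine (C1.gen 0 hP rfl).congr fun N b => ?_
        show V1 h N b = chromQ (m + 1) h' N * E1 (Q N) (xx N) 0 b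
        rw [V1, chromQ_sum, sum_mul]
        refine sum_congr rfl fun g _ => ?_
        rw [wt_snoc]
        have h0 : ∀ i : Fin (m + 1), ¬ m + 1 < h i.castSucc := fun i hi => hE
          (lt_of_lt_of_le hi (hmono (Nat.lt_succ_iff.1 i.isLt)))
        simp only [if_neg (h0 _), prod_const_one, mul_one, E1, p1_zero]
        rfl
      · obtain rfl : m = m' := by omega
        exact he

theorem chromQ_epositive_of_le (n : ℕ) (h : Fin n → ℕ) (hmono : Monotone h)
    (h3 : ∀ i, h i ≤ (i : ℕ) + 3) : EPositive n (chromQ n h) := by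
  rcases n with _ | n
  · refine EPositive.one'.congr fun N => ?_
    rw [chromQ_sum, univ_unique, sum_singleton]
    simp [wt]
  · exact (C1.epositive (main n h hmono h3).1).congr fun N => chromQ_eq_sum_V1 h

end Vale.Agent.P066.Small
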