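import Vale.Agent.P066.Small.Rows

/-! The transition of two-vertex states when a vertex with two earlier neighbours is added. -/

open Finset

noncomputable section

namespace Vale.Agent.P066.Small

variable {R : Type*} [CommRing R] [IsDomain R] {N : ℕ} (q : R) (x : Fin N → R)

lemma sum_HH (hq : q ≠ 1) (D : ℕ) (b : Fin N) :
    ∑ a, HH q x D a b = qn q (D + 1) * E1 q x (D + 1) b := by
  set y : Fin N → R := fun s => cw q s b * x s with hy
  have hs : ∀ a, HH q x D a b = x b * (y a * p1 q y D a) := fun a => by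
    simp only [HH, hy, p1]; ring
  rw [sum_congr rfl fun a _ => hs a, ← mul_sum, E1, mul_left_comm]
  congr 1
  exact sum_E1 q y hq D

lemma step_HH (hq : q ≠ 1) (D : ℕ) (b c : Fin N) :
    ∑ a, HH q x D a b * cw q a c * cw q b c * x c =
      HH q x (D + 1) b c + q * qn q D * prep q x (D + 1) b c := by
  have h1 : (1 - q) ≠ 0 := sub_ne_zero.2 hq.symm
  set y : Fin N → R := fun s => cw q s b * x s with hy
  have hs : ∀ a, HH q x D a b * cw q a c * cw q b c * x c =
      cw q b c * x b * x c * (sel q 1 a c * (y a * p1 q y D a)) := fun a => by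
    simp only [HH, hy, p1, sel_cw]; ring
  rw [sum_congr rfl fun a _ => hs a, ← mul_sum]
  apply mul_left_cancel₀ h1
  rw [mul_left_comm, sum_sel]
  have e : HH q x (D + 1) b c = cw q b c * x b * x c * p1 q y (D + 1) c := by
    have : (fun s => cw q s b * (cw q s c * x s)) = fun s => cw q s c * (cw q s b * x s) :=
      funext fun s => mul_left_comm _ _ _
    simp only [HH, p1, hy, this]; ring
  have e' : prep q x (D + 1) b c = cw q b c * x b * x c * es y (D + 1) := by
    simp only [prep, p1, hy]; ring
  rw [e, e']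
  linear_combination (-(q * cw q b c * x b * x c * es y (D + 1))) * one_sub_mul_qn q D

/-- Adding a vertex adjacent to both marks of `GG`, and summing out the oldest one. -/
lemma step_GG (hq : q ≠ 1) {A B D : ℕ} (hAB : A = B ∨ A = B + 1) (hA : 1 ≤ A) (hAD : A ≤ D)
    (hBD : B < D) (b c : Fin N) :
    ∑ a, GG q x A B D a b * cw q a c * cw q b c * x c =
      GG q x (B + 1) A (D + 1) b c + q * qn q (A - 1) * qn q (B + 1) * prep q x (D + 1) b c +
      ∑ l ∈ range A, q ^ (B + 2) * qn q (A - l) * qn q (D - B - 1) *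
        es x (D - l + 1) * prep q x l b c +
      ∑ l ∈ range B, q ^ (l + 2) * qn q (A - 1) * qn q (B - l) *
        es x (l + 1) * prep q x (D - l) b c := by
  rcases eq_or_ne b c with rfl | hbc
  · simp [GG, prep, cw_self, wo, wy, sel]
  have h1 : (1 - q) ≠ 0 := sub_ne_zero.2 hq.symm
  set g := cw q b c with hg
  set p := fun m => p1 q x m b with hp
  set r := fun m => p1 q x m c with hr
  set Ko := fun l => if b < c then q ^ l * qn q (A - l) else q ^ (B + 1) * qn q (A - l) with hKo
  set Ky := fun l => if b < c then q ^ A * qn q (B - l) else q ^ (l + 1) * qn q (B - l) with hKy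
  have ho : ∀ l ∈ range A, ((1 - q) *
      ∑ a, cw q a c * wo q A B l a b * (x a * p1 q x (D - l) a)) * p l =
      (1 - q) * (q ^ (B + 2) * qn q (A - l) * qn q (D - B - 1) * es x (D - l + 1) * p l) +
      (1 - q) * (Ko l * r (D - l + 1) * p l) +
      g * ((q ^ l * qn q (A - l) - q ^ (B + 1) * qn q (A - l)) * (p (D - l + 1) * p l) +
        (q * (q ^ l * qn q (A - l)) - q ^ (B + 1) * qn q (A - l)) *
          (x b * (p (D - l) * p l))) := by
    intro l hl
    have hl' := mem_range.1 hl
    simp only [wo, sum_sel_cw q x _ _ _ hbc, hKo, hp, hr, hg]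
    have e : q ^ l * q ^ (D - l + 1) = q ^ (B + 2) * q ^ (D - B - 1) := by
      rw [← pow_add, ← pow_add]; congr 1; omega
    have e2 : q * q ^ (B + 1) = q ^ (B + 2) := (pow_succ' q (B + 1)).symm
    linear_combination (-(q ^ (B + 2)) * qn q (A - l) * es x (D - l + 1) * p1 q x l b) *
        one_sub_mul_qn q (D - B - 1) - qn q (A - l) * es x (D - l + 1) * p1 q x l b * e +
      qn q (A - l) * es x (D - l + 1) * p1 q x l b * e2
  have hy : ∀ l ∈ range B, ((1 - q) *
      ∑ a, cw q a c * wy q A B l a b * (x a * p1 q x l a)) * p (D - l) =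
      (1 - q) * (q ^ (l + 2) * qn q (A - 1) * qn q (B - l) * es x (l + 1) * p (D - l)) +
      (1 - q) * (Ky l * r (l + 1) * p (D - l)) +
      g * ((q ^ A * qn q (B - l) - q ^ (l + 1) * qn q (B - l)) * (p (l + 1) * p (D - l)) +
        (q * (q ^ A * qn q (B - l)) - q ^ (l + 1) * qn q (B - l)) *
          (x b * (p l * p (D - l)))) := by
    intro l hl
    simp only [wy, sum_sel_cw q x _ _ _ hbc, hKy, hp, hr, hg]
    have e : q ^ A * q ^ (l + 1) = q ^ (l + 2) * q ^ (A - 1) := by
      rw [← pow_add, ← pow_add]; congr 1; omega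
    linear_combination (-(q ^ (l + 2)) * qn q (B - l) * es x (l + 1) * p1 q x (D - l) b) *
        one_sub_mul_qn q (A - 1) - qn q (B - l) * es x (l + 1) * p1 q x (D - l) b * e
  have hG : (1 - q) * ∑ a, GG q x A B D a b * cw q a c * cw q b c * x c = g * x b * x c *
      (∑ l ∈ range A, ((1 - q) * ∑ a, cw q a c * wo q A B l a b * (x a * p1 q x (D - l) a)) * p l +
        ∑ l ∈ range B, ((1 - q) * ∑ a, cw q a c * wy q A B l a b * (x a * p1 q x l a)) *
          p (D - l)) := by
    simp only [GG, sum_mul, mul_add, add_mul, mul_sum, sum_add_distrib]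
    rw [sum_comm, sum_comm (s := (univ : Finset (Fin N))) (t := range B)]
    congr 1 <;> exact sum_congr rfl fun l _ => sum_congr rfl fun a _ => by
      simp only [hg, hp]; ring
  have hbd := (boundary q p (p1_zero q x b) (x b) A B D hAB hA).resolve_right
    (not_not.2 ⟨hAD, hBD⟩)
  have hG' : GG q x (B + 1) A (D + 1) b c + q * qn q (A - 1) * qn q (B + 1) *
      prep q x (D + 1) b c = g * x b * x c * (g * (qn q A * qn q (B + 1) * p (D + 1)) +
        ∑ l ∈ range A, Ko l * r (D - l + 1) * p l +
        ∑ l ∈ range B, Ky l * r (l + 1) * p (D - l)) := by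
    have t1 : ∀ l ∈ range B, wo q (B + 1) A (l + 1) b c *
        (p1 q x (D + 1 - (l + 1)) b * p1 q x (l + 1) c) = g * (Ky l * r (l + 1) * p (D - l)) := by
      intro l _
      simp only [wo, sel, if_neg hbc, hKy, hg, cw, hp, hr, Nat.add_sub_add_right]
      split_ifs <;> ring
    have t2 : ∀ l ∈ range A, wy q (B + 1) A l b c *
        (p1 q x l b * p1 q x (D + 1 - l) c) = g * (Ko l * r (D - l + 1) * p l) := by
      intro l hl
      have hl' := mem_range.1 hl
      simp only [wy, sel, if_neg hbc, hKo, hg, cw, hp, hr, show D + 1 - l = D - l + 1 by omega]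
      split_ifs <;> ring
    obtain ⟨A', rfl⟩ : ∃ A', A = A' + 1 := ⟨A - 1, by omega⟩
    rw [GG, sum_range_succ', sum_congr rfl t1, sum_congr rfl t2, ← mul_sum, ← mul_sum]
    simp only [Nat.sub_zero, p1_zero, mul_one, Nat.add_sub_cancel, wo, sel, if_neg hbc, pow_zero,
      one_mul, prep]
    have hA1 : qn q (A' + 1) = 1 + q * qn q A' := by
      simp only [qn, sum_range_succ' _ A', mul_sum, pow_zero]
      rw [add_comm]
      exact congrArg (1 + ·) (sum_congr rfl fun i _ => pow_succ' q i)
    have hA2 : qn q (A' + 1) = qn q A' + q ^ A' := sum_range_succ _ _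
    simp only [hg, cw, if_neg hbc, hp]
    split_ifs
    · linear_combination (-(q * q * x b * x c * qn q (B + 1) * p1 q x (D + 1) b)) * hA2
    · linear_combination (-(x b * x c * qn q (B + 1) * p1 q x (D + 1) b)) * hA1
  have ep : ∀ m, prep q x m b c = g * x b * x c * p m := fun m => by
    simp only [prep, hg, hp]; ring
  apply mul_left_cancel₀ h1
  rw [hG, hG', sum_congr rfl ho, sum_congr rfl hy]
  have eo : ∑ l ∈ range A, q ^ (B + 2) * qn q (A - l) * qn q (D - B - 1) *
      es x (D - l + 1) * prep q x l b c = g * x b * x c * ∑ l ∈ range A,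
        q ^ (B + 2) * qn q (A - l) * qn q (D - B - 1) * es x (D - l + 1) * p l := by
    rw [mul_sum]; exact sum_congr rfl fun l _ => by rw [ep]; ring
  have ey : ∑ l ∈ range B, q ^ (l + 2) * qn q (A - 1) * qn q (B - l) *
      es x (l + 1) * prep q x (D - l) b c = g * x b * x c * ∑ l ∈ range B,
        q ^ (l + 2) * qn q (A - 1) * qn q (B - l) * es x (l + 1) * p (D - l) := by
    rw [mul_sum]; exact sum_congr rfl fun l _ => by rw [ep]; ring
  rw [eo, ey]
  simp only [sum_add_distrib, ← mul_sum] at hbd ⊢
  linear_combination g * g * x b * x c * hbd -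
    g * g * qn q A * p (D + 1) * x b * x c * one_sub_mul_qn q (B + 1)

end Vale.Agent.P066.Small
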