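import Vale.Agent.P066.Chrom
import Vale.Agent.P066.Small.Step

/-! The positive cones of one-vertex and two-vertex states, uniformly in the number of variables. -/

open Finset Polynomial

noncomputable section

namespace Vale.Agent.P066

lemma EPositive.zero' (n : ℕ) : EPositive n (fun _ => 0) := ⟨fun _ => 0, fun _ => by simp⟩

lemma EPositive.one' : EPositive 0 (fun _ => 1) := by
  simpa using epositive_prod_esymm (![] : Fin 0 → ℕ)

lemma EPositive.add' {n : ℕ} {P P' : ∀ N : ℕ, MvPolynomial (Fin N) ℤ[X]}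
    (h : EPositive n P) (h' : EPositive n P') : EPositive n (fun N => P N + P' N) := by
  refine (EPositive.sum (univ : Finset Bool) (P := fun b N => if b then P N else P' N)
    ?_).congr fun N => by simp
  intro b _
  cases b <;> simpa

lemma EPositive.mulE {d k n : ℕ} {P : ∀ N : ℕ, MvPolynomial (Fin N) ℤ[X]} (hd : d + k = n)
    (h : EPositive d P) :
    EPositive n (fun N => P N * MvPolynomial.esymm (Fin N) ℤ[X] k) := by
  classical
  subst hd
  obtain ⟨c, hc⟩ := h
  refine (EPositive.sum (univ : Finset (Nat.Partition d))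
    (P := fun μ N => MvPolynomial.C (castZ (c μ)) *
      (MvPolynomial.esymmPart (Fin N) ℤ[X] μ * MvPolynomial.esymm (Fin N) ℤ[X] k)) ?_).congr ?_
  · intro μ _
    apply EPositive.smul
    let ν : Nat.Partition (d + k) := Nat.Partition.ofSums _ (k ::ₘ μ.parts)
      (by simp [μ.parts_sum, add_comm])
    refine ⟨fun ρ => if ρ = ν then 1 else 0, fun N => ?_⟩
    rw [sum_eq_single ν (fun ρ _ hρ => by simp [hρ]) (by simp)]
    have hf : μ.parts.filter (fun i => i ≠ 0) = μ.parts :=
      Multiset.filter_eq_self.2 fun i hi => (μ.parts_pos hi).ne'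
    have hν : ν.parts = (k ::ₘ μ.parts).filter (fun i => i ≠ 0) := rfl
    simp only [↓reduceIte, Polynomial.map_one, map_one, one_mul, MvPolynomial.esymmPart, hν]
    rcases eq_or_ne k 0 with rfl | hk
    · simp [hf]
    · simp [hk, hf, mul_comm]
  · intro N
    rw [hc N, sum_mul]
    exact sum_congr rfl fun μ _ => mul_assoc _ _ _

namespace Small

/-- The variable `q`. -/
def Q (N : ℕ) : MvPolynomial (Fin N) ℤ[X] := MvPolynomial.C Polynomial.X

def xx (N : ℕ) (i : Fin N) : MvPolynomial (Fin N) ℤ[X] := MvPolynomial.X i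

/-- Constants with natural coefficients. -/
def cq (N : ℕ) : ℕ[X] →+* MvPolynomial (Fin N) ℤ[X] := MvPolynomial.C.comp castZ

def qnat (m : ℕ) : ℕ[X] := ∑ i ∈ range m, Polynomial.X ^ i

lemma cq_X (N : ℕ) : cq N Polynomial.X = Q N := by simp [cq, Q, castZ]

lemma cq_qnat (N m : ℕ) : cq N (qnat m) = qn (Q N) m := by simp [qnat, qn, map_sum, cq_X]

lemma Q_ne_one (N : ℕ) : Q N ≠ 1 := by
  rw [Q, ← map_one MvPolynomial.C]
  exact fun h => by simpa [Polynomial.coeff_one] using congrArg (Polynomial.coeff · 1) (MvPolynomial.C_injective _ _ h)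

lemma es_xx (N n : ℕ) : es (xx N) n = MvPolynomial.esymm (Fin N) ℤ[X] n := es_eq_sum _ _

lemma EPositive.cmul {n : ℕ} {P : ∀ N : ℕ, MvPolynomial (Fin N) ℤ[X]} (k : ℕ[X])
    (h : EPositive n P) : EPositive n (fun N => cq N k * P N) :=
  h.smul k

/-- Positive combinations of `e_μ E_{j+1}`. -/
inductive C1 : ℕ → (∀ N, Fin N → MvPolynomial (Fin N) ℤ[X]) → Prop
  | gen {n d : ℕ} (j : ℕ) {P : ∀ N : ℕ, MvPolynomial (Fin N) ℤ[X]} (hP : EPositive d P)
      (hd : d + j + 1 = n) : C1 n (fun N b => P N * E1 (Q N) (xx N) j b)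
  | zero (n : ℕ) : C1 n (fun _ _ => 0)
  | add {n : ℕ} {F G : ∀ N, Fin N → MvPolynomial (Fin N) ℤ[X]} (hF : C1 n F) (hG : C1 n G) :
      C1 n (fun N b => F N b + G N b)

lemma C1.congr {n : ℕ} {F F' : ∀ N, Fin N → MvPolynomial (Fin N) ℤ[X]}
    (h : ∀ N b, F N b = F' N b) (hF : C1 n F') : C1 n F := by
  rwa [show F = F' from funext fun N => funext (h N)]

lemma C1.sum {n : ℕ} (I : Finset ℕ) {F : ℕ → ∀ N, Fin N → MvPolynomial (Fin N) ℤ[X]}
    (h : ∀ i ∈ I, C1 n (F i)) : C1 n (fun N b => ∑ i ∈ I, F i N b) := by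
  induction I using Finset.induction_on with
  | empty => exact (C1.zero n).congr fun N b => sum_empty
  | insert i I hi ih =>
    exact (C1.add (h i (mem_insert_self i I)) (ih fun j hj => h j (mem_insert_of_mem hj))).congr
      fun N b => sum_insert hi

/-- Positive combinations of `e_μ` times the two generators. -/
inductive C2 : ℕ → (∀ N, Fin N → Fin N → MvPolynomial (Fin N) ℤ[X]) → Prop
  | genG {n d : ℕ} (A B D : ℕ) {P : ∀ N : ℕ, MvPolynomial (Fin N) ℤ[X]} (hP : EPositive d P)
      (hAB : A = B ∨ A = B + 1) (hA : 1 ≤ A) (hAD : A ≤ D) (hBD : B < D) (hd : d + D + 2 = n) :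
      C2 n (fun N a b => P N * GG (Q N) (xx N) A B D a b)
  | genH {n d : ℕ} (D : ℕ) {P : ∀ N : ℕ, MvPolynomial (Fin N) ℤ[X]} (hP : EPositive d P)
      (hd : d + D + 2 = n) : C2 n (fun N a b => P N * HH (Q N) (xx N) D a b)
  | zero (n : ℕ) : C2 n (fun _ _ _ => 0)
  | add {n : ℕ} {F G : ∀ N, Fin N → Fin N → MvPolynomial (Fin N) ℤ[X]} (hF : C2 n F)
      (hG : C2 n G) : C2 n (fun N a b => F N a b + G N a b)

lemma C2.congr {n : ℕ} {F F' : ∀ N, Fin N → Fin N → MvPolynomial (Fin N) ℤ[X]}
    (h : ∀ N a b, F N a b = F' N a b) (hF : C2 n F') : C2 n F := by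
  rwa [show F = F' from funext fun N => funext fun a => funext (h N a)]

lemma C2.sum {n : ℕ} (I : Finset ℕ) {F : ℕ → ∀ N, Fin N → Fin N → MvPolynomial (Fin N) ℤ[X]}
    (h : ∀ i ∈ I, C2 n (F i)) : C2 n (fun N a b => ∑ i ∈ I, F i N a b) := by
  induction I using Finset.induction_on with
  | empty => exact (C2.zero n).congr fun N a b => sum_empty
  | insert i I hi ih =>
    exact (C2.add (h i (mem_insert_self i I)) (ih fun j hj => h j (mem_insert_of_mem hj))).congr
      fun N a b => sum_insert hi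

lemma C2.prep {n d : ℕ} (j : ℕ) {P : ∀ N : ℕ, MvPolynomial (Fin N) ℤ[X]} (hP : EPositive d P)
    (hd : d + j + 2 = n) : C2 n (fun N a b => P N * Small.prep (Q N) (xx N) j a b) := by
  rcases Nat.eq_zero_or_pos j with rfl | hj
  · exact (C2.genH 0 hP hd).congr fun N a b => by rw [HH_zero]
  · exact (C2.genG 1 0 j hP (Or.inr rfl) le_rfl hj hj hd).congr fun N a b => by rw [GG_one]

lemma C1.epositive {n : ℕ} {F : ∀ N, Fin N → MvPolynomial (Fin N) ℤ[X]} (h : C1 n F) :
    EPositive n (fun N => ∑ b, F N b) := by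
  induction h with
  | gen j hP hd =>
    refine (EPositive.cmul (qnat (j + 1)) (hP.mulE (k := j + 1) hd)).congr fun N => ?_
    rw [← mul_sum, sum_E1 (Q N) (xx N) (Q_ne_one N), cq_qnat, es_xx]
    ring
  | zero => exact (EPositive.zero' n).congr fun N => sum_const_zero
  | add _ _ ih₁ ih₂ => exact (ih₁.add' ih₂).congr fun N => sum_add_distrib

lemma C1.dplus {n : ℕ} {F : ∀ N, Fin N → MvPolynomial (Fin N) ℤ[X]} (h : C1 n F) :
    C2 (n + 1) (fun N a b => F N a * cw (Q N) a b * xx N b) := by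
  induction h with
  | gen j hP hd =>
    refine (C2.prep (n := _ + 1) j hP (by omega)).congr fun N a b => ?_
    simp only [E1, Small.prep]; ring
  | zero => exact (C2.zero _).congr fun N a b => by simp
  | add _ _ ih₁ ih₂ => exact (C2.add ih₁ ih₂).congr fun N a b => by ring

lemma C2.sumOld {n : ℕ} {F : ∀ N, Fin N → Fin N → MvPolynomial (Fin N) ℤ[X]} (h : C2 n F) :
    C1 n (fun N b => ∑ a, F N a b) := by
  induction h with
  | @genG d A B D P hP hAB hA hAD hBD hd =>
    refine ((C1.gen (D + 1) (EPositive.cmul (qnat A * qnat (B + 1)) hP) (n := n) (by omega)).add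
      (C1.sum (range A) (n := n) (F := fun l N b => cq N (Polynomial.X ^ (B + 1) * qnat (A - l) *
        qnat (D - B)) * (P N * MvPolynomial.esymm (Fin N) ℤ[X] (D - l + 1)) *
        E1 (Q N) (xx N) l b) ?_) |>.add
      (C1.sum (range B) (n := n) (F := fun l N b => cq N (Polynomial.X ^ (l + 1) * qnat A *
        qnat (B - l)) * (P N * MvPolynomial.esymm (Fin N) ℤ[X] (l + 1)) *
        E1 (Q N) (xx N) (D - l) b) ?_)).congr fun N b => ?_
    · intro l hl
      have := mem_range.1 hl
      exact C1.gen l (EPositive.cmul _ (hP.mulE (k := D - l + 1) rfl)) (by omega)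
    · intro l hl
      have := mem_range.1 hl
      exact C1.gen (D - l) (EPositive.cmul _ (hP.mulE (k := l + 1) rfl)) (by omega)
    · rw [← mul_sum, sum_GG (Q N) (xx N) (Q_ne_one N) hAB hA hAD hBD]
      simp only [mul_add, mul_sum, map_mul, map_pow, cq_qnat, cq_X, es_xx]
      refine congrArg₂ (· + ·) (congrArg₂ (· + ·) (by ring) ?_) ?_ <;>
        exact sum_congr rfl fun l _ => by ring
  | @genH d D P hP hd =>
    refine (C1.gen (D + 1) (EPositive.cmul (qnat (D + 1)) hP) (by omega)).congr fun N b => ?_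
    rw [← mul_sum, sum_HH (Q N) (xx N) (Q_ne_one N), cq_qnat]
    ring
  | zero => exact (C1.zero n).congr fun N b => sum_const_zero
  | add _ _ ih₁ ih₂ => exact (C1.add ih₁ ih₂).congr fun N b => sum_add_distrib

lemma C2.step {n : ℕ} {F : ∀ N, Fin N → Fin N → MvPolynomial (Fin N) ℤ[X]} (h : C2 n F) :
    C2 (n + 1) (fun N b c => ∑ a, F N a b * cw (Q N) a c * cw (Q N) b c * xx N c) := by
  induction h with
  | @genG d A B D P hP hAB hA hAD hBD hd =>
    refine (((C2.genG (n := n + 1) (B + 1) A (D + 1) hP (by omega) (by omega) (by omega) (by omega)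
      (by omega)).add
      (C2.prep (D + 1) (EPositive.cmul (Polynomial.X * qnat (A - 1) * qnat (B + 1)) hP)
        (by omega))).add
      (C2.sum (range A) (n := n + 1) (F := fun l N b c => cq N (Polynomial.X ^ (B + 2) *
        qnat (A - l) * qnat (D - B - 1)) * (P N * MvPolynomial.esymm (Fin N) ℤ[X] (D - l + 1)) *
        Small.prep (Q N) (xx N) l b c) ?_) |>.add
      (C2.sum (range B) (n := n + 1) (F := fun l N b c => cq N (Polynomial.X ^ (l + 2) *
        qnat (A - 1) * qnat (B - l)) * (P N * MvPolynomial.esymm (Fin N) ℤ[X] (l + 1)) *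
        Small.prep (Q N) (xx N) (D - l) b c) ?_)).congr fun N b c => ?_
    · intro l hl
      have := mem_range.1 hl
      exact C2.prep l (EPositive.cmul _ (hP.mulE (k := D - l + 1) rfl)) (by omega)
    · intro l hl
      have := mem_range.1 hl
      exact C2.prep (D - l) (EPositive.cmul _ (hP.mulE (k := l + 1) rfl)) (by omega)
    · simp only [mul_assoc (P N), ← mul_sum]
      rw [step_GG (Q N) (xx N) (Q_ne_one N) hAB hA hAD hBD]
      simp only [mul_add, mul_sum, map_mul, map_pow, cq_qnat, cq_X, es_xx]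
      refine congrArg₂ (· + ·) (congrArg₂ (· + ·) (by ring) ?_) ?_ <;>
        exact sum_congr rfl fun l _ => by ring
  | @genH d D P hP hd =>
    refine ((C2.genH (n := n + 1) (D + 1) hP (by omega)).add
      (C2.prep (D + 1) (EPositive.cmul (Polynomial.X * qnat D) hP) (by omega))).congr
      fun N b c => ?_
    rw [show (∑ a, P N * HH (Q N) (xx N) D a b * cw (Q N) a c * cw (Q N) b c * xx N c) =
      P N * ∑ a, HH (Q N) (xx N) D a b * cw (Q N) a c * cw (Q N) b c * xx N c by
        rw [mul_sum]; exact sum_congr rfl fun a _ => by ring,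
      step_HH (Q N) (xx N) (Q_ne_one N)]
    simp only [map_mul, cq_qnat, cq_X]
    ring
  | zero => exact (C2.zero _).congr fun N b c => by simp
  | add _ _ ih₁ ih₂ =>
    exact (C2.add ih₁ ih₂).congr fun N b c => by simp only [add_mul, sum_add_distrib]

end Small
end Vale.Agent.P066
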