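import Vale.Agent.P066.Small.Tele

/-! The two generators of two-vertex states and the sums over their oldest vertex. -/

open Finset

noncomputable section

namespace Vale.Agent.P066.Small

variable {R : Type*} [CommRing R] {N : ℕ} (q : R) (x : Fin N → R)

/-- The one-vertex state `E_{j+1}`. -/
def E1 (j : ℕ) (b : Fin N) : R := x b * p1 q x j b

/-- `E_{j+1}` followed by an adjacent vertex. -/
def prep (j : ℕ) (a b : Fin N) : R := cw q a b * (x a * x b * p1 q x j a)

def wo (A B l : ℕ) (a b : Fin N) : R :=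
  sel (q ^ (B + 1) * qn q (A - l)) (q ^ l * qn q (A - l)) a b

def wy (A B l : ℕ) (a b : Fin N) : R :=
  sel (q ^ (l + 1) * qn q (B - l)) (q ^ A * qn q (B - l)) a b

/-- The two-row generator, `a` older than `b`, written with `A = ⌈c/2⌉`, `B = ⌊c/2⌋`. -/
def GG (A B D : ℕ) (a b : Fin N) : R :=
  x a * x b * (∑ l ∈ range A, wo q A B l a b * (p1 q x (D - l) a * p1 q x l b) +
    ∑ l ∈ range B, wy q A B l a b * (p1 q x l a * p1 q x (D - l) b))

/-- The symmetric one-row generator. -/
def HH (D : ℕ) (a b : Fin N) : R :=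
  cw q a b * (x a * x b * es (fun s => cw q s a * (cw q s b * x s)) D)

lemma HH_zero (a b : Fin N) : HH q x 0 a b = prep q x 0 a b := by
  simp [HH, prep, es_zero, p1_zero]

lemma GG_one (D : ℕ) (a b : Fin N) : GG q x 1 0 D a b = prep q x D a b := by
  simp only [GG, sum_range_one, range_zero, sum_empty, add_zero, prep, Nat.sub_zero, p1_zero,
    mul_one, wo, qn, pow_zero, pow_one, zero_add, cw, sel]
  split_ifs <;> ring

lemma sum_E1 [IsDomain R] (hq : q ≠ 1) (j : ℕ) :
    ∑ b, E1 q x j b = qn q (j + 1) * es x (j + 1) := by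
  have h1 : (1 - q) ≠ 0 := sub_ne_zero.2 hq.symm
  apply mul_left_cancel₀ h1
  rw [← mul_assoc, one_sub_mul_qn, mul_sum]
  simp only [E1]
  rw [sum_congr rfl fun a _ => key q x j a]
  have := tel (N := N) (fun t => ec q x (j + 1) t) 0 N (Nat.zero_le _) le_rfl
  simp only [Nat.zero_le, Fin.is_lt, and_self, if_true] at this
  rw [this, ec_zero, ec_top]
  ring

/-- The boundary terms at the younger colour cancel in pairs. -/
lemma boundary (p : ℕ → R) (hp : p 0 = 1) (u : R) (A B D : ℕ)
    (hAB : A = B ∨ A = B + 1) (hA : 1 ≤ A) :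
    (∑ l ∈ range A,
      ((q ^ l * qn q (A - l) - q ^ (B + 1) * qn q (A - l)) * (p (D - l + 1) * p l) +
        (q * (q ^ l * qn q (A - l)) - q ^ (B + 1) * qn q (A - l)) * (u * (p (D - l) * p l)))) +
    (∑ l ∈ range B,
      ((q ^ A * qn q (B - l) - q ^ (l + 1) * qn q (B - l)) * (p (l + 1) * p (D - l)) +
        (q * (q ^ A * qn q (B - l)) - q ^ (l + 1) * qn q (B - l)) * (u * (p l * p (D - l))))) =
    qn q A * (1 - q ^ (B + 1)) * p (D + 1) ∨ ¬(A ≤ D ∧ B < D) := by
  by_cases hD : A ≤ D ∧ B < D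
  swap
  · exact Or.inr hD
  left
  obtain ⟨hAD, -⟩ := hD
  have hpow : ∀ m l, l ≤ m → q ^ m = q ^ l * q ^ (m - l) := fun m l h => by
    rw [← pow_add, Nat.add_sub_cancel' h]
  have xp : ∀ l < B, (q * (q ^ l * qn q (A - l)) - q ^ (B + 1) * qn q (A - l)) *
      (u * (p (D - l) * p l)) +
      (q * (q ^ A * qn q (B - l)) - q ^ (l + 1) * qn q (B - l)) * (u * (p l * p (D - l))) = 0 := by
    intro l hl
    rw [hpow A l (by omega), show B + 1 = l + 1 + (B - l) by omega, pow_add]
    linear_combination (q ^ (l + 1) * (u * (p (D - l) * p l)) * qn q (A - l)) *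
        (one_sub_mul_qn q (B - l)).symm -
      (q ^ (l + 1) * (u * (p (D - l) * p l)) * qn q (B - l)) * (one_sub_mul_qn q (A - l)).symm
  have pp : ∀ l < B, l + 1 < A →
      (q ^ (l + 1) * qn q (A - (l + 1)) - q ^ (B + 1) * qn q (A - (l + 1))) *
        (p (D - (l + 1) + 1) * p (l + 1)) +
      (q ^ A * qn q (B - l) - q ^ (l + 1) * qn q (B - l)) * (p (l + 1) * p (D - l)) = 0 := by
    intro l hl hlA
    rw [show D - (l + 1) + 1 = D - l by omega, hpow A (l + 1) hlA.le,
      show B + 1 = l + 1 + (B - l) by omega, pow_add]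
    linear_combination (q ^ (l + 1) * (p (D - l) * p (l + 1)) * qn q (A - (l + 1))) *
        (one_sub_mul_qn q (B - l)).symm -
      (q ^ (l + 1) * (p (D - l) * p (l + 1)) * qn q (B - l)) *
        (one_sub_mul_qn q (A - (l + 1))).symm
  rw [sum_add_distrib, sum_add_distrib]
  obtain ⟨A', rfl⟩ : ∃ A', A = A' + 1 := ⟨A - 1, by omega⟩
  rw [sum_range_succ' (fun l => (q ^ l * qn q (A' + 1 - l) - q ^ (B + 1) * qn q (A' + 1 - l)) *
    (p (D - l + 1) * p l))]
  simp only [Nat.sub_zero, pow_zero, one_mul, hp, mul_one]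
  rcases hAB with rfl | hAB
  · have hpp : ∑ l ∈ range A', ((q ^ (l + 1) * qn q (A' + 1 - (l + 1)) -
        q ^ (A' + 1 + 1) * qn q (A' + 1 - (l + 1))) * (p (D - (l + 1) + 1) * p (l + 1))) +
        ∑ l ∈ range A', ((q ^ (A' + 1) * qn q (A' + 1 - l) -
          q ^ (l + 1) * qn q (A' + 1 - l)) * (p (l + 1) * p (D - l))) = 0 := by
      rw [← sum_add_distrib]
      exact sum_eq_zero fun l hl => pp l (by simp at hl; omega) (by simp at hl; omega)
    have hxp : ∑ l ∈ range (A' + 1), (q * (q ^ l * qn q (A' + 1 - l)) -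
        q ^ (A' + 1 + 1) * qn q (A' + 1 - l)) * (u * (p (D - l) * p l)) +
        ∑ l ∈ range (A' + 1), (q * (q ^ (A' + 1) * qn q (A' + 1 - l)) -
          q ^ (l + 1) * qn q (A' + 1 - l)) * (u * (p l * p (D - l))) = 0 := by
      rw [← sum_add_distrib]
      exact sum_eq_zero fun l hl => xp l (by simpa using hl)
    rw [sum_range_succ (fun l => (q ^ (A' + 1) * qn q (A' + 1 - l) -
      q ^ (l + 1) * qn q (A' + 1 - l)) * (p (l + 1) * p (D - l)))]
    linear_combination hpp + hxp
  · obtain rfl : A' = B := by omega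
    have hpp : ∑ l ∈ range A', ((q ^ (l + 1) * qn q (A' + 1 - (l + 1)) -
        q ^ (A' + 1) * qn q (A' + 1 - (l + 1))) * (p (D - (l + 1) + 1) * p (l + 1))) +
        ∑ l ∈ range A', ((q ^ (A' + 1) * qn q (A' - l) -
          q ^ (l + 1) * qn q (A' - l)) * (p (l + 1) * p (D - l))) = 0 := by
      rw [← sum_add_distrib]
      exact sum_eq_zero fun l hl => pp l (by simpa using hl) (by simp at hl; omega)
    have hxp : ∑ l ∈ range A', (q * (q ^ l * qn q (A' + 1 - l)) -
        q ^ (A' + 1) * qn q (A' + 1 - l)) * (u * (p (D - l) * p l)) +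
        ∑ l ∈ range A', (q * (q ^ (A' + 1) * qn q (A' - l)) -
          q ^ (l + 1) * qn q (A' - l)) * (u * (p l * p (D - l))) = 0 := by
      rw [← sum_add_distrib]
      exact sum_eq_zero fun l hl => xp l (by simpa using hl)
    rw [sum_range_succ (fun l => (q * (q ^ l * qn q (A' + 1 - l)) -
      q ^ (A' + 1) * qn q (A' + 1 - l)) * (u * (p (D - l) * p l)))]
    linear_combination hpp + hxp

variable [IsDomain R]

/-- Summing the oldest vertex out of `GG`. -/
lemma sum_GG (hq : q ≠ 1) {A B D : ℕ} (hAB : A = B ∨ A = B + 1) (hA : 1 ≤ A) (hAD : A ≤ D)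
    (hBD : B < D) (b : Fin N) :
    ∑ a, GG q x A B D a b = qn q A * qn q (B + 1) * E1 q x (D + 1) b +
      ∑ l ∈ range A, q ^ (B + 1) * qn q (A - l) * qn q (D - B) *
        es x (D - l + 1) * E1 q x l b +
      ∑ l ∈ range B, q ^ (l + 1) * qn q A * qn q (B - l) *
        es x (l + 1) * E1 q x (D - l) b := by
  have h1 : (1 - q) ≠ 0 := sub_ne_zero.2 hq.symm
  apply mul_left_cancel₀ h1
  have ho : ∀ l < A, (1 - q) * ∑ a, wo q A B l a b * (x a * p1 q x (D - l) a) =
      (1 - q) * (q ^ (B + 1) * qn q (A - l) * qn q (D - B) * es x (D - l + 1)) +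
      (q ^ l * qn q (A - l) - q ^ (B + 1) * qn q (A - l)) * p1 q x (D - l + 1) b +
      (q * (q ^ l * qn q (A - l)) - q ^ (B + 1) * qn q (A - l)) *
        (x b * p1 q x (D - l) b) := by
    intro l hl
    simp only [wo, sum_sel]
    have e : q ^ l * q ^ (D - l + 1) = q ^ (B + 1) * q ^ (D - B) := by
      rw [← pow_add, ← pow_add]; congr 1; omega
    linear_combination (-(q ^ (B + 1)) * qn q (A - l) * es x (D - l + 1)) *
      one_sub_mul_qn q (D - B) - qn q (A - l) * es x (D - l + 1) * e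
  have hy : ∀ l < B, (1 - q) * ∑ a, wy q A B l a b * (x a * p1 q x l a) =
      (1 - q) * (q ^ (l + 1) * qn q A * qn q (B - l) * es x (l + 1)) +
      (q ^ A * qn q (B - l) - q ^ (l + 1) * qn q (B - l)) * p1 q x (l + 1) b +
      (q * (q ^ A * qn q (B - l)) - q ^ (l + 1) * qn q (B - l)) * (x b * p1 q x l b) := by
    intro l _
    simp only [wy, sum_sel]
    linear_combination (-(q ^ (l + 1)) * qn q (B - l) * es x (l + 1)) * one_sub_mul_qn q A
  have hG : ∑ a, GG q x A B D a b = x b *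
      (∑ l ∈ range A, (∑ a, wo q A B l a b * (x a * p1 q x (D - l) a)) * p1 q x l b +
        ∑ l ∈ range B, (∑ a, wy q A B l a b * (x a * p1 q x l a)) * p1 q x (D - l) b) := by
    simp only [sum_mul, mul_add, mul_sum]
    rw [sum_comm, sum_comm (s := range B), ← sum_add_distrib]
    refine sum_congr rfl fun a _ => ?_
    rw [GG, mul_add, mul_sum, mul_sum]
    congr 1 <;> exact sum_congr rfl fun l _ => by ring
  have hbd := (boundary q (fun m => p1 q x m b) (p1_zero q x b) (x b) A B D hAB hA).resolve_right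
    (not_not.2 ⟨hAD, hBD⟩)
  have e1 : (1 - q) * ∑ a, GG q x A B D a b = x b *
      (∑ l ∈ range A, ((1 - q) * ∑ a, wo q A B l a b * (x a * p1 q x (D - l) a)) * p1 q x l b +
       ∑ l ∈ range B, ((1 - q) * ∑ a, wy q A B l a b * (x a * p1 q x l a)) *
        p1 q x (D - l) b) := by
    rw [hG, mul_left_comm, mul_add, mul_sum, mul_sum]
    simp only [mul_assoc]
  have so : ∀ l ∈ range A,
      ((1 - q) * ∑ a, wo q A B l a b * (x a * p1 q x (D - l) a)) * p1 q x l b =
      (1 - q) * (q ^ (B + 1) * qn q (A - l) * qn q (D - B) * es x (D - l + 1) * p1 q x l b) +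
      ((q ^ l * qn q (A - l) - q ^ (B + 1) * qn q (A - l)) *
          (p1 q x (D - l + 1) b * p1 q x l b) +
        (q * (q ^ l * qn q (A - l)) - q ^ (B + 1) * qn q (A - l)) *
          (x b * (p1 q x (D - l) b * p1 q x l b))) := fun l hl => by
    rw [ho l (mem_range.1 hl)]; ring
  have sy : ∀ l ∈ range B,
      ((1 - q) * ∑ a, wy q A B l a b * (x a * p1 q x l a)) * p1 q x (D - l) b =
      (1 - q) * (q ^ (l + 1) * qn q A * qn q (B - l) * es x (l + 1) * p1 q x (D - l) b) +
      ((q ^ A * qn q (B - l) - q ^ (l + 1) * qn q (B - l)) *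
          (p1 q x (l + 1) b * p1 q x (D - l) b) +
        (q * (q ^ A * qn q (B - l)) - q ^ (l + 1) * qn q (B - l)) *
          (x b * (p1 q x l b * p1 q x (D - l) b))) := fun l hl => by
    rw [hy l (mem_range.1 hl)]; ring
  rw [e1, sum_congr rfl so, sum_congr rfl sy]
  simp only [sum_add_distrib, ← mul_sum] at hbd ⊢
  have eo : ∑ l ∈ range A, q ^ (B + 1) * qn q (A - l) * qn q (D - B) * es x (D - l + 1) *
      E1 q x l b = x b * ∑ l ∈ range A,
        q ^ (B + 1) * qn q (A - l) * qn q (D - B) * es x (D - l + 1) * p1 q x l b := by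
    rw [mul_sum]; exact sum_congr rfl fun l _ => by rw [E1]; ring
  have ey : ∑ l ∈ range B, q ^ (l + 1) * qn q A * qn q (B - l) * es x (l + 1) *
      E1 q x (D - l) b = x b * ∑ l ∈ range B,
        q ^ (l + 1) * qn q A * qn q (B - l) * es x (l + 1) * p1 q x (D - l) b := by
    rw [mul_sum]; exact sum_congr rfl fun l _ => by rw [E1]; ring
  rw [eo, ey, E1]
  linear_combination x b * hbd -
    qn q A * p1 q x (D + 1) b * x b * one_sub_mul_qn q (B + 1)

end Vale.Agent.P066.Small
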