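import Mathlib

/-! Colour sums used for unit interval graphs of clique number at most three: telescoping. -/

open Finset

noncomputable section

namespace Vale.Agent.P066.Small

variable {R : Type*} [CommRing R] {N : ℕ} (q : R)

/-- Edge weight between an older vertex of colour `a` and a younger one of colour `b`. -/
def cw (a b : Fin N) : R := if a = b then 0 else if a < b then q else 1

/-- Weight `L` below the colour `b`, weight `H` above it, zero at it. -/
def sel (L H : R) (a b : Fin N) : R := if a = b then 0 else if a < b then L else H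

lemma sel_cw (a b : Fin N) : sel q 1 a b = cw q a b := rfl

lemma cw_self (a : Fin N) : cw q a a = 0 := if_pos rfl

/-- The `q`-integer. -/
def qn (m : ℕ) : R := ∑ i ∈ range m, q ^ i

lemma one_sub_mul_qn (m : ℕ) : (1 - q) * qn q m = 1 - q ^ m :=
  mul_neg_geom_sum q m

/-- Elementary symmetric function of a list of values. -/
def es (w : Fin N → R) (n : ℕ) : R := (∏ s, (1 + Polynomial.C (w s) * Polynomial.X)).coeff n

lemma es_eq_sum (w : Fin N → R) (n : ℕ) :
    es w n = ∑ t ∈ (univ : Finset (Fin N)).powersetCard n, ∏ s ∈ t, w s := by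
  rw [es, prod_one_add, Polynomial.finsetSum_coeff, powersetCard_eq_filter, sum_filter]
  refine sum_congr rfl fun t _ => ?_
  rw [prod_mul_distrib, prod_const, ← map_prod, Polynomial.coeff_C_mul_X_pow]
  simp [eq_comm]

lemma es_zero (w : Fin N → R) : es w 0 = 1 := by simp [es_eq_sum]

lemma es_smul (w : Fin N → R) (n : ℕ) : es (fun s => q * w s) n = q ^ n * es w n := by
  rw [es_eq_sum, es_eq_sum, mul_sum]
  refine sum_congr rfl fun t ht => ?_
  rw [prod_mul_distrib, prod_const, (mem_powersetCard.1 ht).2]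

lemma es_update (w : Fin N → R) (c : Fin N) (n : ℕ) :
    es w (n + 1) = es (Function.update w c 0) (n + 1) + w c * es (Function.update w c 0) n := by
  have h0 : ∏ s, (1 + Polynomial.C (Function.update w c 0 s) * Polynomial.X) =
      ∏ s ∈ univ.erase c, (1 + Polynomial.C (w s) * Polynomial.X) := by
    rw [← mul_prod_erase univ _ (mem_univ c)]
    simp only [Function.update_self, map_zero, zero_mul, add_zero, one_mul]
    refine prod_congr rfl fun s hs => ?_
    rw [Function.update_of_ne (ne_of_mem_erase hs)]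
  simp only [es]
  rw [h0, ← mul_prod_erase univ _ (mem_univ c), add_mul, one_mul, Polynomial.coeff_add,
    mul_assoc, Polynomial.coeff_C_mul, Polynomial.coeff_X_mul]

/-- The row started at colour `a`. -/
def p1 (y : Fin N → R) (n : ℕ) (a : Fin N) : R := es (fun s => cw q s a * y s) n

/-- The cut elementary symmetric function. -/
def ec (y : Fin N → R) (n t : ℕ) : R := es (fun s => (if (s : ℕ) < t then q else 1) * y s) n

lemma p1_zero (y : Fin N → R) (a : Fin N) : p1 q y 0 a = 1 := es_zero _

lemma ec_self (y : Fin N → R) (n : ℕ) (c : Fin N) :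
    ec q y (n + 1) (c : ℕ) = p1 q y (n + 1) c + y c * p1 q y n c := by
  have h : Function.update (fun s : Fin N => (if (s : ℕ) < (c : ℕ) then q else 1) * y s) c 0 =
      fun s => cw q s c * y s := by
    funext s
    rcases eq_or_ne s c with rfl | hs
    · simp [cw]
    · simp [cw, hs]
  rw [ec, es_update _ c, h]
  simp [p1]

lemma ec_succ (y : Fin N → R) (n : ℕ) (c : Fin N) :
    ec q y (n + 1) ((c : ℕ) + 1) = p1 q y (n + 1) c + q * y c * p1 q y n c := by
  have h : Function.update (fun s : Fin N => (if (s : ℕ) < (c : ℕ) + 1 then q else 1) * y s) c 0 =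
      fun s => cw q s c * y s := by
    funext s
    rcases eq_or_ne s c with rfl | hs
    · simp [cw]
    · have hv : (s : ℕ) ≠ (c : ℕ) := fun e => hs (Fin.ext e)
      have : s ≤ c ↔ s < c := ⟨fun h => lt_of_le_of_ne h hs, le_of_lt⟩
      simp [cw, hs, this]
  rw [ec, es_update _ c, h]
  simp [p1]

lemma key (y : Fin N → R) (n : ℕ) (a : Fin N) :
    (1 - q) * (y a * p1 q y n a) = ec q y (n + 1) (a : ℕ) - ec q y (n + 1) ((a : ℕ) + 1) := by
  rw [ec_self, ec_succ]; ring

lemma ec_zero (y : Fin N → R) (n : ℕ) : ec q y n 0 = es y n := by simp [ec]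

lemma ec_top (y : Fin N → R) (n : ℕ) : ec q y n N = q ^ n * es y n := by
  rw [← es_smul]; simp [ec]

lemma tel (g : ℕ → R) (lo hi : ℕ) (h1 : lo ≤ hi) (h2 : hi ≤ N) :
    ∑ a : Fin N, (if lo ≤ (a : ℕ) ∧ (a : ℕ) < hi then g a - g (a + 1) else 0) = g lo - g hi := by
  rw [Fin.sum_univ_eq_sum_range (fun i => if lo ≤ i ∧ i < hi then g i - g (i + 1) else 0) N,
    ← sum_filter]
  have : (range N).filter (fun i => lo ≤ i ∧ i < hi) = Ico lo hi := by
    ext i; simp; omega
  rw [this, ← neg_inj, ← sum_neg_distrib]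
  simp only [neg_sub]
  exact sum_Ico_sub g h1

/-- Summing out the oldest colour next to one marked colour. -/
lemma sum_sel (y : Fin N → R) (n : ℕ) (L H : R) (b : Fin N) :
    (1 - q) * ∑ a, sel L H a b * (y a * p1 q y n a) =
      (L - H * q ^ (n + 1)) * es y (n + 1) + (H - L) * p1 q y (n + 1) b +
        (q * H - L) * (y b * p1 q y n b) := by
  set g := ec q y (n + 1) with hg
  have hb := b.isLt
  have h : ∀ a : Fin N, (1 - q) * (sel L H a b * (y a * p1 q y n a)) =
      L * (if 0 ≤ (a : ℕ) ∧ (a : ℕ) < (b : ℕ) then g a - g (a + 1) else 0) +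
      H * (if (b : ℕ) + 1 ≤ (a : ℕ) ∧ (a : ℕ) < N then g a - g (a + 1) else 0) := by
    intro a
    rw [mul_left_comm (1 - q), key]
    have ha := a.isLt
    rcases lt_trichotomy a b with hab | hab | hab
    · have h' : (a : ℕ) < b := hab
      simp [sel, hab.ne, hab, h', show ¬((b : ℕ) + 1 ≤ a) by omega, hg]
    · subst hab; simp [sel]
    · have h' : (b : ℕ) < a := hab
      simp [sel, hab.ne', hab.not_gt, show ¬((a : ℕ) < b) by omega,
        show (b : ℕ) + 1 ≤ a by omega, hg]
  rw [mul_sum, sum_congr rfl fun a _ => h a, sum_add_distrib, ← mul_sum, ← mul_sum,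
    tel g 0 b (Nat.zero_le _) hb.le, tel g (b + 1) N hb le_rfl]
  simp only [hg, ec_zero, ec_top, ec_self, ec_succ]
  ring

/-- Summing out the oldest colour next to two marked colours. -/
lemma sum_sel_cw (y : Fin N → R) (n : ℕ) (L H : R) {b c : Fin N} (hbc : b ≠ c) :
    (1 - q) * ∑ a, cw q a c * sel L H a b * (y a * p1 q y n a) =
      (q * L - H * q ^ (n + 1)) * es y (n + 1) +
      (1 - q) * ((if b < c then H else L) * p1 q y (n + 1) c) +
      cw q b c * ((H - L) * p1 q y (n + 1) b + (q * H - L) * (y b * p1 q y n b)) := by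
  set g := ec q y (n + 1) with hg
  have hb := b.isLt
  have hc := c.isLt
  rcases hbc.lt_or_gt with hlt | hlt
  · have hlt' : (b : ℕ) < c := hlt
    have h : ∀ a : Fin N, (1 - q) * (cw q a c * sel L H a b * (y a * p1 q y n a)) =
        q * L * (if 0 ≤ (a : ℕ) ∧ (a : ℕ) < (b : ℕ) then g a - g (a + 1) else 0) +
        q * H * (if (b : ℕ) + 1 ≤ (a : ℕ) ∧ (a : ℕ) < c then g a - g (a + 1) else 0) +
        H * (if (c : ℕ) + 1 ≤ (a : ℕ) ∧ (a : ℕ) < N then g a - g (a + 1) else 0) := by
      intro a
      rw [mul_left_comm (1 - q), key]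
      have ha := a.isLt
      simp only [cw, sel, Fin.lt_def, Fin.ext_iff, ← hg]
      split_ifs <;> first | (exfalso; omega) | ring1
    rw [mul_sum, sum_congr rfl fun a _ => h a, sum_add_distrib, sum_add_distrib, ← mul_sum,
      ← mul_sum, ← mul_sum, tel g 0 b (Nat.zero_le _) hb.le,
      tel g (b + 1) c hlt' hc.le, tel g (c + 1) N hc le_rfl]
    simp only [hg, ec_zero, ec_top, ec_self, ec_succ, if_pos hlt, cw, if_neg hbc]
    ring
  · have hlt' : (c : ℕ) < b := hlt
    have h : ∀ a : Fin N, (1 - q) * (cw q a c * sel L H a b * (y a * p1 q y n a)) =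
        q * L * (if 0 ≤ (a : ℕ) ∧ (a : ℕ) < (c : ℕ) then g a - g (a + 1) else 0) +
        L * (if (c : ℕ) + 1 ≤ (a : ℕ) ∧ (a : ℕ) < b then g a - g (a + 1) else 0) +
        H * (if (b : ℕ) + 1 ≤ (a : ℕ) ∧ (a : ℕ) < N then g a - g (a + 1) else 0) := by
      intro a
      rw [mul_left_comm (1 - q), key]
      have ha := a.isLt
      simp only [cw, sel, Fin.lt_def, Fin.ext_iff, ← hg]
      split_ifs <;> first | (exfalso; omega) | ring1
    rw [mul_sum, sum_congr rfl fun a _ => h a, sum_add_distrib, sum_add_distrib, ← mul_sum,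
      ← mul_sum, ← mul_sum, tel g 0 c (Nat.zero_le _) hc.le,
      tel g (c + 1) b hlt' hb.le, tel g (b + 1) N hb le_rfl]
    simp only [hg, ec_zero, ec_top, ec_self, ec_succ, if_neg hlt.not_gt, cw, if_neg hbc]
    ring

end Vale.Agent.P066.Small
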